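import Vale.Agent.P269.PA.Stm

/-!
# The Leray-Hirsch package of a projective bundle (statement)
-/

namespace Vale.Agent.P269

open P291Z Set Function Fock

namespace St

/-- The geometric part of `St.PrjCoh`. -/
def PrjLH : Prop :=
  ∀ {R J K : Type} [Fintype R] [Fintype J] [Fintype K] [DecidableEq R] (F : Fam Empty Empty R J K)
    {r : ℕ} (a : Fin (r + 1) → R → ℤ) (θ), F.Tg → 0 < r → (F.proj a θ).Good →
    ∃ (π : C((F.proj a θ).X (F.proj a θ).cone, F.X F.cone))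
      (LF : (R → ℤ) →+ Ch.Hev (F.X F.cone))
      (LE : (Option R → ℤ) →+ Ch.Hev ((F.proj a θ).X (F.proj a θ).cone)),
      (∀ χ, (LF χ).1 = F.lc _ 0 χ) ∧ (∀ χ, (LE χ).1 = (F.proj a θ).lc _ 0 χ) ∧
      (∀ χ, IsNilpotent (LF χ)) ∧ (∀ χ, H.IsDeg 2 (LE χ).1) ∧
      (∀ x, (F.proj a θ).pb F.toWt (fun z => (z.1, z.2 ∘ .inl)) _ x = H.map π x) ∧
      (∀ χ, H.map π (LF χ).1 = (LE fun o => o.elim 0 χ).1) ∧
      Bijective (fun v : Fin (r + 1) → H (F.X F.cone) =>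
        ∑ l : Fin (r + 1), (LE (Pi.single none 1)).1 ^ (l : ℕ) * H.map π (v l)) ∧
      (∀ m : ℕ, (LE (Pi.single none 1)).1 ^ m = ∑ k : Fin (r + 1),
        (LE (Pi.single none 1)).1 ^ (k : ℕ) * H.map π (B.xc (fun l => LF (a l)) m k).1) ∧
      ∀ (m : ℕ) x, (F.proj a θ).intX _ ((LE (Pi.single none 1)).1 ^ m * H.map π x) =
        F.intX _ ((B.xc (fun l => LF (a l)) m r).1 * x)

end St

end Vale.Agent.P269
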