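import Vale.Agent.P269.B.Nat
import Vale.Agent.P269.Deg.Iface

/-! Transport of frames, Virasoro data and Virasoro constraints along even isomorphisms. -/

namespace Vale.Agent.P269.Fock

variable {H H' : Type} [AddCommGroup H] [Module ℂ H] [AddCommGroup H'] [Module ℂ H']
  {p : Par ℂ H} {p' : Par ℂ H'} {ι : Type} [Fintype ι]

lemma IsEv.symm {Ψ : H ≃ₗ[ℂ] H'} (h : IsEv p p' Ψ.toLinearMap) : IsEv p' p Ψ.symm.toLinearMap :=
  fun v => Ψ.injective ((h _).symm.trans (by simp))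

/-- The frame transported along an even isomorphism. -/
noncomputable def Frame.cm (fr : Frame p' ι) (Ψ : H ≃ₗ[ℂ] H') (h : IsEv p p' Ψ.toLinearMap) :
    Frame p ι where
  η := fr.η.compl₁₂ Ψ.toLinearMap Ψ.toLinearMap
  sym v w := (fr.η_symm _ _).trans (congrArg (fr.η · _) (h w))
  e a := Ψ.symm (fr.e a)
  f a := Ψ.symm (fr.f a)
  π := fr.π
  he a := (h.symm _).trans (by rw [fr.he, map_smul]; rfl)
  hf a := (h.symm _).trans (by rw [fr.hf, map_smul]; rfl)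
  left v := Ψ.injective (by simpa using fr.left (Ψ v))
  one := Ψ.symm fr.one
  hone := (h.symm _).trans (by rw [fr.hone]; rfl)

variable {fr : Frame p' ι} {Ψ : H ≃ₗ[ℂ] H'} {h : IsEv p p' Ψ.toLinearMap}

@[simp] lemma Frame.cm_η (v w : H) : (fr.cm Ψ h).η v w = fr.η (Ψ v) (Ψ w) := rfl

@[simp] lemma Frame.cm_one : Ψ (fr.cm Ψ h).one = fr.one := Ψ.apply_symm_apply _

lemma Frame.cmp_cm : (fr.cm Ψ h).Cmp fr Ψ.toLinearMap 1 1 :=
  ⟨h, fun _ _ => (one_mul _).symm, fun _ => (Ψ.apply_symm_apply _).symm,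
    fun _ => ((one_smul _ _).trans (Ψ.apply_symm_apply _)).symm, (Ψ.apply_symm_apply _).symm⟩

variable (Ψ h) in
/-- Virasoro data transported along an even isomorphism. -/
noncomputable def VD.cm (d : VD fr) : VD (fr.cm Ψ h) where
  μ := Ψ.symm.toLinearMap ∘ₗ d.μ ∘ₗ Ψ.toLinearMap
  ρ := Ψ.symm.toLinearMap ∘ₗ d.ρ ∘ₗ Ψ.toLinearMap
  evμ := h.symm.comp (d.evμ.comp h)
  evρ := h.symm.comp (d.evρ.comp h)
  adjμ v w := by simpa using d.adjμ (Ψ v) (Ψ w)
  adjρ v w := by simpa using d.adjρ (Ψ v) (Ψ w)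
  comm := LinearMap.ext fun v => by simpa using congrArg Ψ.symm (LinearMap.congr_fun d.comm (Ψ v))

@[simp] lemma VD.cm_μ (d : VD fr) (v : H) : Ψ ((d.cm Ψ h).μ v) = d.μ (Ψ v) :=
  Ψ.apply_symm_apply _

@[simp] lemma VD.cm_ρ (d : VD fr) (v : H) : Ψ ((d.cm Ψ h).ρ v) = d.ρ (Ψ v) :=
  Ψ.apply_symm_apply _

lemma map_surjective {f : H →ₗ[ℂ] H'} (hf : IsEv p p' f) (hs : Function.Surjective f) :
    Function.Surjective (Fock.map f hf) := fun y =>
  Fock.induction (P := fun y => y ∈ (Fock.map f hf).range) y (one_mem _)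
    (fun v _ h => by
      obtain ⟨v, rfl⟩ := hs v
      exact mul_mem ⟨_, map_ι f hf v⟩ h)
    (fun _ _ => add_mem) fun c _ h => Subalgebra.smul_mem _ h c

lemma bcS_eq_map {f : H →ₗ[ℂ] H'} (hf : IsEv p p' f) (hf' : IsEvS p p' f) (x : S p) :
    bcS f hf' x = Fock.map f hf x :=
  Fock.induction (P := fun x => bcS f hf' x = Fock.map f hf x) x (by simp)
    (fun v x h => by simp [h]) (fun x y h h' => by simp [h, h']) fun c x h => by simp [h]

/-- **Transport of the Virasoro constraints.** -/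
theorem VD.virC_cm (d : VD fr) {M : Type} [AddCommGroup M] [Module ℂ M]
    (Z : ℤ → S (p'.fs ℕ) →ₗ[ℂ] M) :
    (d.cm Ψ h).VirC (fun j => Z j ∘ₗ (Fock.map _ (Deg.isEv_vv h)).toLinearMap) ↔ d.VirC Z := by
  have c := Frame.cmp_cm (fr := fr) (h := h)
  have e : ∀ x, Fock.map _ (Deg.isEv_vv h) x = bcS _ (c.ev.fs ℕ) x := fun x =>
    (bcS_eq_map (Deg.isEv_vv h) _ x).symm
  have hμ : B.Rl Ψ.toLinearMap (d.cm Ψ h).μ d.μ := fun v => (d.cm_μ v).symm
  have hρ : B.Rl Ψ.toLinearMap (d.cm Ψ h).ρ d.ρ := fun v => (d.cm_ρ v).symm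
  have k := fun k => B.rl_ell hμ hρ k
  refine forall₂_congr fun n j => ?_
  rw [(map_surjective (Deg.isEv_vv h) (Finsupp.mapRange_surjective _ (map_zero _)
    Ψ.surjective)).forall]
  refine forall_congr' fun x => ?_
  simp only [LinearMap.comp_apply, AlgHom.toLinearMap_apply, e, map_add, bcS_smul,
    c.q0 (VD.quad_ell _ n) (d.quad_ell n) (k n), c.qm (VD.quad_ell _ n) (d.quad_ell n) (k n),
    c.q1 (VD.quad_ell _ n) (d.quad_ell n) (k n), one_smul, B.rl_c0 c (one_mul 1) hμ,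
    RingHom.id_apply]

end Vale.Agent.P269.Fock
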