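import Vale.Agent.P269.Prj.TgtM
import Vale.Agent.P269.Prj.LH
import Vale.Agent.P269.Grr.PB
import Vale.Agent.P269.Holo.Etale

/-!
# The Leray-Hirsch package of a projective bundle
-/

set_option linter.unusedSectionVars false
set_option linter.style.haveILetI false

namespace Vale.Agent.P269

open P291Z Set Function Topology Filter Holo Mono Tq Module Ch Polynomial

namespace Prj

section abs

variable {U : Loc.HO} {E : VB U.toSp} {r : ℕ} (hr : E.r = r + 1) {X : Type} [TopologicalSpace X]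
  {e : C(X, E.PS.X)} (he : IsHomeomorph e) {π : C(X, U.X)} (hπ : π = E.pp.map.comp e) {ξ : Hev X}
  (hξ : ξ = Hev.map e E.xi)
include hr he hπ hξ

theorem lh_bij : Bijective fun v : Fin (r + 1) → H U.X =>
    ∑ l : Fin (r + 1), ξ.1 ^ (l : ℕ) * H.map π (v l) := by
  have h := E.lh_bijective
  rw [hr] at h
  have k := ((H.map_bijective_of_homeomorph (he.homeomorph e)).comp h).comp
    Finsupp.equivFunOnFinite.symm.bijective
  refine (congrArg Bijective (funext fun v => ?_)).mp k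
  rw [comp_apply, comp_apply, ← Finsupp.univ_sum_single (Finsupp.equivFunOnFinite.symm v), map_sum,
    map_sum]
  refine Finset.sum_congr rfl fun l _ => ?_
  rw [H.lh_single, map_mul, map_pow, hπ, hξ]
  exact (congrArg₂ (· * ·) (H.map_map _ _ _) rfl).trans
    (Hev.commute (Hev.map e E.xi ^ (l : ℕ)).2 _).symm

omit hr he in
theorem evP_eq (Q : (Hev U.X)[X]) : evP π ξ Q = Hev.map e (evP E.pp.map E.xi Q) := by
  rw [map_evP, hπ, hξ]

omit he in
theorem pow_eq (m : ℕ) :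
    ξ ^ m = ∑ k : Fin (r + 1), ξ ^ (k : ℕ) * Hev.map π ((Polynomial.X ^ m %ₘ E.chern).coeff k) := by
  have h := congrArg (evP π ξ) (modByMonic_add_div (Polynomial.X ^ m) E.chern)
  rw [map_add, map_mul, evP_eq hπ hξ E.chern, E.evP_chern, map_zero, zero_mul, add_zero, map_pow,
    evP_X, ← sum_modByMonic_coeff E.chern_mon.monic
      (degree_le_of_natDegree_le (hr ▸ E.chern_mon.le)), map_sum] at h
  exact h.symm.trans (Finset.sum_congr rfl fun k _ => (evP_monomial _ _).trans (mul_comm _ _))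

theorem intg_pow {hE han} [Nice X] [CompactSpace X] [CompactSpace U.X] {β : BM X}
    (hβ : res e (Grr.psF (U := U) (E := E) hE han r hr) = β) (m : ℕ) (x : H U.X) :
    Loc.intg β (ξ.1 ^ m * H.map π x) =
      Loc.intg U.fund (((Polynomial.X ^ m %ₘ E.chern).coeff r).1 * x) := by
  haveI : CompactSpace E.PS.X := (he.homeomorph e).compactSpace
  have h : Loc.intg (push _ (cap _ (Grr.psF hE han r hr))) x = Loc.intg _ x :=
    congrArg (Loc.intg · x) (Grr.push_ps (hE := hE) (han := han) (hr := hr) (Polynomial.X ^ m))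
  rw [Loc.intg_push, Loc.intg_cap, Loc.intg_cap, map_pow, evP_X,
    ← push_res_homeo he (Grr.psF hE han r hr), Loc.intg_push, hβ, map_mul, H.map_map, ← hπ] at h
  rw [Hev.commute (Subtype.prop _), hξ]
  exact (congrArg _ ((Hev.commute (Hev.map e E.xi ^ m).2 _).trans
    (congrArg _ (map_pow (H.map e) _ _).symm))).trans h

omit hr he hπ hξ in
theorem an_chars {ι : Type} [Fintype ι] {χ : ι → U.G →ₜ* ℂˣ}
    (h : ∀ i, AnalyticAt ℂ (fun x => (χ i (U.κ x) : ℂ)) 0) (w : (chars χ).W) :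
    AnalyticAt ℂ (fun p : U.L × (chars χ).W => U.κ p.1 • p.2) (0, w) :=
  analyticAt_pi_iff.2 fun l => ((h l).comp_of_eq analyticAt_fst rfl).mul
    (analyticAt_pi_iff.1 analyticAt_snd l)

end abs

variable {R J K : Type} [Fintype R] [Fintype J] [Fintype K] [DecidableEq R]
  {F : Fam Empty Empty R J K} {r : ℕ} {a : Fin (r + 1) → R → ℤ} {θ : Option R → ℤ}

theorem mem_cone (h : F.Tg) {z} :
    z ∈ (F.proj a θ).cone ↔ (z.1, z.2 ∘ .inl) ∈ F.cone ∧ z.2 ∘ .inr ≠ 0 := by
  have e : ∀ k, (F.proj a θ).eqn z k = F.eqn (z.1, z.2 ∘ .inl) k := fun k =>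
    (congrArg _ (MvPolynomial.map_rename _ _ _)).trans (MvPolynomial.eval_rename _ _ _)
  simp only [Fam.mem_cone, h.bs_eq, e, mem_univ, true_and]
  exact ⟨fun k => ⟨⟨k.2.1.1, k.2.2⟩, k.2.1.2⟩,
    fun k => ⟨⟨trivial, trivial, fun _ => False.elim⟩, ⟨k.1.1, k.2⟩, k.1.2⟩⟩

theorem hm_some : Hm fun t : (Empty → ℂ) × (Option R → ℂ) => (t.1, t.2 ∘ some) :=
  ⟨rfl, fun _ _ _ _ => rfl, fun _ _ => by fun_prop⟩

theorem hm_none : Hm fun t : (Empty → ℂ) × (Option R → ℂ) => t.2 none :=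
  ⟨rfl, fun _ _ _ _ => rfl, fun _ _ => by fun_prop⟩

theorem exp_snd (x : (Empty → ℂ) × (R → ℂ)) (i : R) :
    (NormedSpace.exp x).2 i = Complex.exp (x.2 i) := by
  rw [Prod.snd_exp, Pi.coe_exp, Complex.exp_eq_exp_ℂ]

theorem chT_elim (ψ ψ' : Empty → ℤ) (n : ℤ) (χ : R → ℤ) (t : (Empty → ℂ) × (Option R → ℂ)) :
    chT ψ (fun o => o.elim n χ) t = t.2 none ^ n * chT ψ' χ (t.1, t.2 ∘ some) := by
  simp [chT, Fintype.prod_option]

theorem eqh (h : F.Tg) : Eqh (F.proj a θ).actT F.actT (F.proj a θ).cone F.cone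
    (fun t => (t.1, t.2 ∘ some)) fun z => (z.1, z.2 ∘ .inl) :=
  ⟨hm_some, fun _ k => ((mem_cone h).1 k).1, by fun_prop, fun t _ z _ =>
    Prod.ext (Subsingleton.elim _ _) (funext fun j => congrArg (· * z.2 (.inl j))
      ((chT_elim _ (F.wt j) 0 (F.w j) t).trans (by rw [zpow_zero, one_mul]; rfl)))⟩

theorem dim (h : F.Tg) {n : ℕ} (hd : Dim F.actT F.cone n) :
    Dim (F.proj a θ).actT (F.proj a θ).cone (n + r) := fun z hz => by
  have k := (mem_cone h).1 hz
  have := ((hd _ k.1).prod (.univ (z.2 ∘ Sum.inr))).iso (S' := (F.proj a θ).cone)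
    (F := fun p => (p.1.1, Sum.elim p.1.2 p.2)) (G := fun z => ((z.1, z.2 ∘ .inl), z.2 ∘ .inr))
    ((analyticAt_fst.comp analyticAt_fst).prod (analyticAt_pi_iff.2 fun j => j.rec
      (analyticAt_pi_iff.1 (analyticAt_snd.comp analyticAt_fst)) (analyticAt_pi_iff.1 analyticAt_snd)))
    ((analyticAt_fst.prod (analyticAt_pi_iff.2 fun j => analyticAt_pi_iff.1 analyticAt_snd _)).prod
      (analyticAt_pi_iff.2 fun j => analyticAt_pi_iff.1 analyticAt_snd _))
    ((continuousAt_snd.eventually_ne k.2).mono fun s h1 h2 => ⟨(mem_cone h).2 ⟨h2.1, h1⟩, rfl⟩)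
    (.of_forall fun s h1 => ⟨⟨((mem_cone h).1 h1).1, trivial⟩, by simp⟩)
  simp only [Sum.elim_comp_inl_inr] at this
  convert this using 1
  simp
  ring

section

variable (hF : F.Tg) [FP F.actT F.cone] [FP (F.proj a θ).actT (F.proj a θ).cone]

variable (F a) in
/-- the sum of the line bundles -/
noncomputable abbrev vb : VB (sp F.actT F.cone) := chars fun l => (hm_chT 0 (a l)).ρ

variable (a θ) in
/-- the comparison with the projective bundle -/
noncomputable def mor : Mor (sp (F.proj a θ).actT (F.proj a θ).cone) (vb F a).PS :=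
  ⟨hm_some.ρ.toMonoidHom.prod hm_none.ρ.toMonoidHom, fun x => VB.PT.mk ((eqh hF).mor.f x)
    (x.val.2 ∘ .inr) trivial ((mem_cone hF).1 x.val_mem).2,
    hm_some.ρ.continuous.prodMk hm_none.ρ.continuous,
    VB.PT.continuous_mk (eqh hF).mor.cf (continuous_pi fun _ =>
      (continuous_apply _).comp (continuous_snd.comp Sp.continuous_val)) _ _,
    fun g x => VB.PT.ext ((eqh hF).mor.eqv g x) (funext fun l =>
      (congrArg (· * x.val.2 (.inr l)) ((chT_elim _ 0 1 (a l) g).trans (by rw [zpow_one]; rfl))).trans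
        (mul_assoc _ _ _))⟩

theorem mor_bij : Bijective (mor a θ hF).f :=
  ⟨fun _ _ e => Sp.ext (Prod.ext (Subsingleton.elim _ _) (funext fun j => j.rec
    (congrFun (congrArg (fun p : (vb F a).PT => (Sp.val (act := F.actT) p.t).2) e))
    (congrFun (congrArg VB.PT.w e)))),
    fun x => ⟨Sp.of (F.proj a θ).actT (0, Sum.elim (Sp.val (act := F.actT) x.t).2 x.w)
      ((mem_cone hF).2 ⟨Subsingleton.elim (Sp.val (act := F.actT) x.t).1 0 ▸
        Sp.val_mem (act := F.actT) x.t, x.ne⟩),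
      VB.PT.ext (Sp.ext (Prod.ext (Subsingleton.elim _ _) rfl)) rfl⟩⟩

theorem rho_bij : Bijective (mor a θ hF).ρ :=
  ⟨fun _ _ e => Units.ext (Prod.ext (Subsingleton.elim _ _) (funext fun o => o.rec
    (congrArg (fun p => p.2.val) e) (congrFun (congrArg (fun p => p.1.val.2) e)))),
    fun g => ⟨IsUnit.unit (a := (g.1.val.1, fun o => o.elim g.2.val g.1.val.2))
      (isUnit_T.2 ⟨fun i => i.elim, fun o => o.rec g.2.ne_zero (isUnit_T.1 g.1.isUnit).2⟩),
      Prod.ext (Units.ext rfl) (Units.ext rfl)⟩⟩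

theorem an_vb (l) : AnalyticAt ℂ (fun x => ((hm_chT (0 : Empty → ℤ) (a l)).ρ (expU x) : ℂ)) 0 :=
  an_chT (exp_an _) (expU _).isUnit 0 (a l)

theorem homeo {n : ℕ} (hd : Dim F.actT F.cone n) : IsHomeomorph (mor a θ hF).map ∧
    res (mor a θ hF).map (Grr.psF (U := hd.ho F.lin_actT) (E := vb F a) (fun _ => rfl)
      (an_chars an_vb) r (Fintype.card_fin _)) = fnd (F.proj a θ).actT (F.proj a θ).cone := by
  obtain ⟨h1, -, -, h2, -⟩ := etale ((dim hF hd).ho (F.proj a θ).lin_actT)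
    (Grr.ps (hd.ho F.lin_actT) (vb F a) (fun _ => rfl) (an_chars an_vb) r
      (Fintype.card_fin _)) rfl
    (mor a θ hF) (fun t => HolAt.of_an (Φ := fun z : (Empty → ℂ) × (J ⊕ Fin (r + 1) → ℂ) =>
      ((z.1, z.2 ∘ Sum.inl), z.2 ∘ Sum.inr))
      ((analyticAt_fst.prod (analyticAt_pi_iff.2 fun j => analyticAt_pi_iff.1 analyticAt_snd _)).prod
        (analyticAt_pi_iff.2 fun j => analyticAt_pi_iff.1 analyticAt_snd _)))
    (LinearMap.toContinuousLinearMap ⟨⟨fun t : (Empty → ℂ) × (Option R → ℂ) =>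
      ((t.1, t.2 ∘ some), t.2 none), fun _ _ => rfl⟩, fun _ _ => rfl⟩)
    (fun x => Prod.ext (Units.ext (Prod.ext (Subsingleton.elim _ _) (funext fun i =>
      (exp_snd x _).trans (exp_snd (x.1, x.2 ∘ some) i).symm))) (Units.ext (exp_snd x _)))
    (fun x => ⟨(x.1.1, fun o => o.elim x.2 x.1.2), rfl⟩) (rho_bij hF).2
    fun t t' e => ⟨1, ⟨map_one _, (one_smul _ _).trans ((mor_bij hF).1 e)⟩,
      fun g k => (rho_bij hF).1 (k.1.trans (map_one _).symm)⟩
  refine ⟨⟨h1.continuous, h1.isOpenMap, h1.injective, fun x => ?_⟩, h2.trans (dim hF hd).fnd_eq.symm⟩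
  obtain ⟨t, rfl⟩ := (vb F a).PS.surj x
  obtain ⟨t, rfl⟩ := (mor_bij (θ := θ) hF).2 t
  exact ⟨_, Mor.map_π _ t⟩

end

end Prj

open Prj in
theorem St.prjLH : St.PrjLH := by
  intro R J K _ _ _ _ F r a θ hF _ hE
  haveI := hF.toGood.fp
  haveI := hE.fp
  haveI := hF.compact
  haveI := hE.compact (haveI : Subsingleton ((F.proj a θ).Bs (F.proj a θ).B) :=
    inferInstanceAs (Subsingleton (Quot _)); Finite.compactSpace)
  obtain ⟨h1, h2⟩ := homeo (a := a) (θ := θ) hF hF.dim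
  have hπ : (eqh (a := a) (θ := θ) hF).toEqv.qm = (vb F a).pp.map.comp (mor a θ hF).map := by
    rw [← Mor.map_comp, ← (eqh hF).mor_map]
    exact Mor.map_ext fun _ => rfl
  have hξ : (F.proj a θ).lce (F.proj a θ).cone (0, Pi.single none 1) =
      Hev.map (mor a θ hF).map (vb F a).xi :=
    (congrArg c1 (ContinuousMonoidHom.ext fun g => Units.ext (by
      change chT 0 (Pi.single none 1) g.val = g.val.2 none
      simp [chT, Fintype.prod_option]))).trans (map_c1 (mor a θ hF) _).symm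
  have hc : (vb F a).chern = B.fE fun l => F.lce F.cone (0, a l) := chern_chars _
  refine ⟨(eqh hF).toEqv.qm, (F.lce _).comp (.inr _ _), ((F.proj a θ).lce _).comp (.inr _ _),
    Wt.lce_val 0, Wt.lce_val 0, fun χ => hF.dim.isNilpotent (Wt.lce_deg _) one_pos,
    fun χ => Wt.lce_deg _, fun _ => Wt.pb_eq (eqh (a := a) (θ := θ) hF).toEqv _, fun χ => ?_,
    lh_bij (U := hF.dim.ho F.lin_actT) (Fintype.card_fin _) h1 hπ hξ, fun m => ?_, fun m x => ?_⟩
  · exact ((congrArg _ (Wt.lce_val 0 χ)).trans (Wt.map_lc (eqh (a := a) (θ := θ) hF) fun t _ =>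
      ((chT_elim _ _ 0 χ t).trans (by rw [zpow_zero, one_mul])).symm)).trans (Wt.lce_val 0 _).symm
  · have := congrArg Subtype.val
      (pow_eq (U := hF.dim.ho F.lin_actT) (Fintype.card_fin _) hπ hξ m)
    rw [hc, AddSubmonoidClass.coe_finsetSum] at this
    exact this
  · have := intg_pow (U := hF.dim.ho F.lin_actT) (Fintype.card_fin _) h1 hπ hξ h2 m x
    rw [hc, Dim.ho_fund] at this
    exact (Wt.intX_eq _).trans (this.trans (Wt.intX_eq _).symm)

end Vale.Agent.P269
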