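import Vale.Agent.P269.Prj.Tgt

/-!
# The total space of a family of targets is a manifold
-/

set_option linter.unusedSectionVars false
set_option linter.style.haveILetI false

namespace Vale.Agent.P269

open P291Z Set Function Topology Filter Holo Mono Tq Module

variable {S Λ R J K I : Type} [Fintype S] [Fintype Λ] [Fintype R] [Fintype J] [Fintype K] [Fintype I]

namespace Fam

variable {F : Fam S Λ R J K} {z : (Λ → ℂ) × (J → ℂ)}

theorem an_line (z : (Λ → ℂ) × (J → ℂ)) (η : J → ℂ) :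
    AnalyticAt ℂ (fun ε : ℂ => (z.1, fun j => z.2 j + ε * η j)) 0 :=
  analyticAt_const.prod (analyticAt_pi_iff.2 fun _ => by fun_prop)

/-- lines in the movable directions -/
theorem Inv.arc_bs (h : F.Inv) (hz : z ∈ F.bs) {η : J → ℂ} (hη : ∀ j ∉ F.mov, η j = 0) :
    Arc F.bs z fun ε => (z.1, fun j => z.2 j + ε * η j) :=
  ⟨an_line z η, by simp, .of_forall fun ε => ⟨hz.1,
    h.baseE _ z.2 _ (fun j hj => by simp [hη j hj]) hz.2.1, fun j hj => by
      simp [hη j (disjoint_left.1 h.zer_base hj), hz.2.2 j hj]⟩⟩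

/-- **The cone is cut out transversally.** -/
theorem Reg.mfd {K₀ : Set K} (hr : F.Reg K₀) (h : F.Inv) (hz : z ∈ F.cone) {m : ℕ}
    (hb : MfdAt F.bs m z) : ∃ n, n + Nat.card K₀ = m ∧ MfdAt F.cone n z := by
  classical
  have hz' := F.mem_cone.1 hz
  rw [Nat.card_eq_fintype_card, ← finrank_fintype_fun_eq_card ℂ]
  refine hb.sub' (f := fun s (k : K₀) => F.eqn s k)
    (.of_an (analyticAt_pi_iff.2 fun k => an_eqn _ z)) (funext fun k => hz'.2.2 k)
    (fun c _ => Submodule.subset_span ?_) ?_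
  · obtain ⟨η, h1, h2⟩ := hr.ind z hz fun k => if e : k ∈ K₀ then c ⟨k, e⟩ else 0
    refine ⟨_, h.arc_bs hz'.1 h1, HasDerivAt.deriv (hasDerivAt_pi.2 fun k => ?_)⟩
    exact (Vir.hasDerivAt_eval ((F.fib z.1).F k) z.2 η).congr_deriv
      ((h2 k k.2).trans (dif_pos k.2))
  · filter_upwards [hr.cut z hz, h.openU.mem_nhds hz'.2.1] with s h1 h2
    rw [F.mem_cone]
    exact and_congr_right fun e => ⟨fun k => funext fun j => k.2 j,
      fun k => ⟨h2, h1 e fun j hj => congrFun k ⟨j, hj⟩⟩⟩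

/-- **The conditions on the base fields cut out a manifold.** -/
theorem Sh.mfd [DecidableEq I] {δ : J → ℕ} {φ : I → J} {n ψ} (hs : F.Sh δ φ n ψ) (h : F.Inv)
    {b : ℕ} (hb : F.Sm b) (hz : z ∈ F.cone) :
    ∃ m, m + Nat.card (F.movᶜ \ range φ : Set J) = b + Fintype.card J ∧ MfdAt F.bs m z := by
  classical
  have h0 : ∀ j i, n j i < 0 → z.2 (φ i) ≠ 0 := fun j i e =>
    hs.ne _ (hs.free i).1 (hs.free i).2.1 (hs.neg j i e) z hz
  have h1 : ∀ᶠ s in 𝓝 z, ∀ j i, n j i < 0 → s.2 (φ i) ≠ 0 := by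
    simp only [eventually_all]
    exact fun j i e => (by fun_prop : Continuous fun s : (Λ → ℂ) × (J → ℂ) =>
      s.2 (φ i)).continuousAt.eventually_ne (h0 j i e)
  have h2 : ∀ s : (Λ → ℂ) × (J → ℂ), (∀ j i, n j i < 0 → s.2 (φ i) ≠ 0) → (s ∈ F.bs ↔
      s ∈ F.B ×ˢ (univ : Set (J → ℂ)) ∧ (fun j : (F.movᶜ \ range φ : Set J) =>
        s.2 j - if j.1 ∈ F.zer then 0 else ψ j s.1 * ∏ i, s.2 (φ i) ^ n j i) = 0) := fun s e => by
    simp only [funext_iff, Pi.zero_apply, sub_eq_zero, mem_prod, mem_univ, and_true]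
    refine and_congr_right fun hB => ⟨fun k j => ?_, fun k => ?_⟩
    · split_ifs with c
      exacts [k.2 j c, (hs.E _ hB _ k.2 e).1 k.1 j j.2.1 c]
    have k' : ∀ j ∈ F.zer, s.2 j = 0 := fun j c => (k ⟨j, disjoint_left.1 h.zer_base c,
      fun ⟨i, e⟩ => (hs.free i).2.1 (e ▸ c)⟩).trans (if_pos c)
    refine ⟨(hs.E _ hB _ k' e).2 fun j c c' => ?_, k'⟩
    by_cases d : j ∈ range φ
    · obtain ⟨i, rfl⟩ := d
      rw [(hs.free i).2.2.1, (hs.free i).2.2.2, Finset.prod_eq_single i (fun _ _ e => by simp [e])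
        (by simp)]
      simp
    · exact (k ⟨j, c, d⟩).trans (if_neg c')
  have hm : MfdAt (F.B ×ˢ (univ : Set (J → ℂ))) _ z := MfdAt.prod ⟨hz.1, hb _⟩ (.univ z.2)
  rw [Nat.card_eq_fintype_card, ← finrank_fintype_fun_eq_card ℂ, ← finrank_fintype_fun_eq_card ℂ]
  refine hm.sub' (.of_an (analyticAt_pi_iff.2 fun j => ?_))
    ((h2 z h0).1 (F.mem_cone.1 hz).1).2 (fun c _ => Submodule.subset_span ?_) (h1.mono h2)
  · refine (analyticAt_pi_iff.1 analyticAt_snd j.1).sub ?_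
    split_ifs
    · exact analyticAt_const
    refine ((hs.an j _ hz.1).1.comp analyticAt_fst).mul (Finset.analyticAt_fun_prod _ fun i _ => ?_)
    rcases lt_or_ge (n j i) 0 with e | e
    exacts [(analyticAt_pi_iff.1 analyticAt_snd (φ i)).fun_zpow (h0 j i e),
      (analyticAt_pi_iff.1 analyticAt_snd (φ i)).fun_zpow_nonneg e]
  · refine ⟨_, ⟨an_line z fun j => if e : j ∈ F.movᶜ \ range φ then c ⟨j, e⟩ else 0, by simp,
      .of_forall fun _ => ⟨hz.1, trivial⟩⟩, HasDerivAt.deriv (hasDerivAt_pi.2 fun j => ?_)⟩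
    have k : ∀ i, φ i ∉ F.movᶜ \ range φ := fun i e => e.2 ⟨i, rfl⟩
    simp only [dif_neg (k _), dif_pos j.2, mul_zero, add_zero]
    exact ((((hasDerivAt_id' (0 : ℂ)).mul_const (c j)).const_add (z.2 j)).sub_const _).congr_deriv
      (one_mul _)

variable [DecidableEq R]

/-- **The total space of a nice family is a complex orbifold of pure dimension.** -/
theorem Nice.exists_dim {δ : J → ℕ} (h : F.Nice δ) : ∃ n, Dim F.actT F.cone n := by
  obtain ⟨K₀, hr⟩ := h.reg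
  obtain ⟨b, hb⟩ := h.sm
  obtain ⟨_, φ, _, _, hs⟩ := h.sh
  haveI := h.toGood.fp
  refine ⟨_, .of_mfd (m := b + Fintype.card J - Nat.card (F.movᶜ \ range φ : Set J) - Nat.card K₀)
    fun z hz => ?_⟩
  obtain ⟨m, h1, h2⟩ := hs.mfd h.toInv hb hz
  obtain ⟨n, h3, h4⟩ := hr.mfd h.toInv hz h2
  rwa [← h1, ← h3, Nat.add_sub_cancel, Nat.add_sub_cancel]

section tg

variable {F : Fam Empty Empty R J K} (h : F.Tg)
include h

theorem Tg.bs_eq : F.bs = univ := eq_univ_of_forall fun _ => ⟨h.B ▸ trivial, h.E ▸ trivial,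
  fun _ hj => (disjoint_left.1 h.zer_base hj (h.mov ▸ trivial)).elim⟩

theorem Tg.mfd {z} (hz : z ∈ F.cone) :
    ∃ n, n + Fintype.card K = Fintype.card J ∧ MfdAt F.cone n z := by
  simpa using h.reg.mfd h.toInv hz (m := finrank ℂ ((Empty → ℂ) × (J → ℂ)))
    (h.bs_eq ▸ MfdAt.univ z)

theorem Tg.card_le (hz : F.cone.Nonempty) : Fintype.card R + Fintype.card K ≤ Fintype.card J := by
  obtain ⟨z, hz⟩ := hz
  obtain ⟨n, h1, h2⟩ := h.mfd hz
  haveI := h.toGood.fp
  simpa [← h1] using FP.finrank_le (x := Sp.of F.actT z hz) (h2.isMfd hz)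

/-- **The dimension of a target.** -/
theorem Tg.dim : Dim F.actT F.cone (Fintype.card J - Fintype.card K - Fintype.card R) := by
  haveI := h.toGood.fp
  simpa using Dim.of_mfd (act := F.actT) (m := Fintype.card J - Fintype.card K) fun z hz => by
    obtain ⟨n, h1, h2⟩ := h.mfd hz
    rwa [← h1, Nat.add_sub_cancel]

theorem Tg.compact : CompactSpace (F.X F.cone) :=
  h.toGood.compact (haveI : Subsingleton (F.Bs F.B) := inferInstanceAs (Subsingleton (Quot _))
    Finite.compactSpace)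

end tg

end Fam

end Vale.Agent.P269
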