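import Vale.Agent.P269.Mono.DgIntA
import Vale.Agent.P269.Prop.TopA
import Vale.Agent.P269.Loc.Lam
import Vale.Agent.P269.Loc.TH
import Vale.Agent.P269.Holo.Set2

/-!
# Free proper actions of unit groups: maps, line bundles, fundamental classes
-/

set_option linter.unusedSectionVars false
set_option linter.style.haveILetI false

namespace Vale.Agent.P269.Tq

open Set Function Topology Filter Module Vale.Agent.P291Z Vale.Agent.P269.Holo Vale.Agent.P269.Orb
  Vale.Agent.P269.Mono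

variable {A A' A'' W W' W'' : Type} [NormedRing A] [NormedAlgebra ℂ A] [NormedAddCommGroup W]
  [NormedSpace ℂ W] [NormedRing A'] [NormedAlgebra ℂ A'] [NormedAddCommGroup W'] [NormedSpace ℂ W']
  [NormedRing A''] [NormedAlgebra ℂ A''] [NormedAddCommGroup W''] [NormedSpace ℂ W'']
  {act : A → W → W} {act' : A' → W' → W'} {act'' : A'' → W'' → W''} {S Z : Set W} {S' : Set W'}
  {S'' : Set W''} {f : W → W'} {f' : W' → W''} {θ : A → A'} {θ' : A' → A''}

theorem mk_out (z : Quo act S) : Quo.mk act z.out = z := Quot.out_eq z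

theorem mk_surj : Surjective (Quo.mk act : S → Quo act S) := Quot.mk_surjective

theorem continuous_mk : Continuous (Quo.mk act : S → Quo act S) := continuous_quot_mk

theorem mk_act {a : A} (ha : IsUnit a) {x : W} (hx : x ∈ S) (h : act a x ∈ S) :
    Quo.mk act (⟨act a x, h⟩ : S) = Quo.mk act ⟨x, hx⟩ := (Quot.sound ⟨a, ha, rfl⟩).symm

/-- `f` is continuous and maps orbits in `S` to orbits in `S'`. -/
structure Eqv (act : A → W → W) (act' : A' → W' → W') (S : Set W) (S' : Set W') (f : W → W') :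
    Prop where
  maps : MapsTo f S S'
  cont : ContinuousOn f S
  eqv : ∀ a, IsUnit a → ∀ x ∈ S, ∃ b, IsUnit b ∧ f (act a x) = act' b (f x)

namespace Eqv

/-- the induced map of orbit spaces -/
def qm (h : Eqv act act' S S' f) : C(Quo act S, Quo act' S') :=
  ⟨Quot.map (fun x => ⟨f x, h.maps x.2⟩) fun x _ ⟨a, h1, h2⟩ =>
      (h.eqv a h1 x x.2).imp fun _ e => ⟨e.1, (congrArg f h2).trans e.2⟩,
    continuous_quot_lift _ (continuous_quot_mk.comp (h.cont.domRestrict.subtype_mk _))⟩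

variable (h : Eqv act act' S S' f)

theorem qm_mk (x : S) : h.qm (Quo.mk act x) = Quo.mk act' ⟨f x, h.maps x.2⟩ := rfl

theorem qm_out (z : Quo act S) : Quo.mk act' ⟨f z.out, h.maps z.out.2⟩ = h.qm z :=
  (h.qm_mk _).symm.trans (congrArg _ (mk_out z))

include h in
theorem comp (h' : Eqv act' act'' S' S'' f') : Eqv act act'' S S'' (fun x => f' (f x)) :=
  ⟨h'.maps.comp h.maps, h'.cont.comp h.cont h.maps, fun a ha x hx => by
    obtain ⟨b, h1, h2⟩ := h.eqv a ha x hx
    rw [h2]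
    exact h'.eqv b h1 _ (h.maps hx)⟩

theorem qm_comp (h' : Eqv act' act'' S' S'' f') : h'.qm.comp h.qm = (h.comp h').qm :=
  ContinuousMap.ext fun z => by obtain ⟨x, rfl⟩ := mk_surj z; rfl

theorem map_map (h' : Eqv act' act'' S' S'' f') (c : H (Quo act'' S'')) :
    H.map h.qm (H.map h'.qm c) = H.map (h.comp h').qm c := by rw [H.map_map, qm_comp]

include h in
theorem mono (e : Z ⊆ S) {Z' : Set W'} (e' : MapsTo f Z Z') : Eqv act act' Z Z' f :=
  ⟨e', h.cont.mono e, fun a ha x hx => h.eqv a ha x (e hx)⟩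

theorem incl (e : Z ⊆ S) : Eqv act act Z S id :=
  ⟨e, continuousOn_id, fun a ha _ _ => ⟨a, ha, rfl⟩⟩

theorem qm_incl (e : Z ⊆ S) : (incl (act := act) e).qm = qinc act e := rfl

theorem qm_ext {g : W → W'} (k : Eqv act act' S S' g)
    (e : ∀ x ∈ S, ∃ b, IsUnit b ∧ g x = act' b (f x)) : h.qm = k.qm :=
  ContinuousMap.ext fun z => by
    obtain ⟨x, rfl⟩ := mk_surj z
    exact Quot.sound (e x x.2)

theorem qm_id {g : W → W} (k : Eqv act act S S g) (e : ∀ x ∈ S, ∃ b, IsUnit b ∧ g x = act b x)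
    (z : Quo act S) : k.qm z = z := by
  obtain ⟨x, rfl⟩ := mk_surj z
  exact (Quot.sound (e x x.2)).symm

/-- mutually inverse maps -/
def homeo {g : W' → W} (k : Eqv act' act S' S g)
    (e : ∀ x ∈ S, ∃ b, IsUnit b ∧ g (f x) = act b x)
    (e' : ∀ x ∈ S', ∃ b, IsUnit b ∧ f (g x) = act' b x) : Quo act S ≃ₜ Quo act' S' where
  toFun := h.qm
  invFun := k.qm
  left_inv z := ((DFunLike.congr_fun (h.qm_comp k) z :).trans ((h.comp k).qm_id e z) :)
  right_inv z := ((DFunLike.congr_fun (k.qm_comp h) z :).trans ((k.comp h).qm_id e' z) :)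
  continuous_toFun := h.qm.continuous
  continuous_invFun := k.qm.continuous

end Eqv

/-- `θ` is a continuous homomorphism on units. -/
structure Hm (θ : A → A') : Prop where
  one : θ 1 = 1
  mul : ∀ a b, IsUnit a → IsUnit b → θ (a * b) = θ a * θ b
  cont : ∀ a, IsUnit a → ContinuousAt θ a

namespace Hm

variable (h : Hm θ)

/-- the homomorphism of unit groups -/
def ρ : Aˣ →ₜ* A'ˣ where
  toFun g := ⟨θ g, θ ↑g⁻¹, by rw [← h.mul _ _ g.isUnit g⁻¹.isUnit, Units.mul_inv, h.one],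
    by rw [← h.mul _ _ g⁻¹.isUnit g.isUnit, Units.inv_mul, h.one]⟩
  map_one' := Units.ext h.one
  map_mul' a b := Units.ext (h.mul _ _ a.isUnit b.isUnit)
  continuous_toFun := by
    have : Continuous fun g : Aˣ => θ g := continuous_iff_continuousAt.2 fun g =>
      (h.cont _ g.isUnit).comp Units.continuous_val.continuousAt
    exact Units.continuous_iff.2 ⟨this, this.comp continuous_inv⟩

@[simp] theorem ρ_val (g : Aˣ) : (h.ρ g : A') = θ g := rfl

include h in
theorem isUnit {a : A} (ha : IsUnit a) : IsUnit (θ a) := (h.ρ ha.unit).isUnit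

include h in
theorem comp (h' : Hm θ') : Hm fun a => θ' (θ a) :=
  ⟨by rw [h.one, h'.one], fun a b ha hb => by
    rw [h.mul a b ha hb, h'.mul _ _ (h.isUnit ha) (h.isUnit hb)],
    fun a ha => (h'.cont _ (h.isUnit ha)).comp (h.cont a ha)⟩

theorem id : Hm (fun a : A => a) := ⟨rfl, fun _ _ _ _ => rfl, fun _ _ => continuousAt_id⟩

theorem const : Hm (fun _ : A => (1 : A')) :=
  ⟨rfl, fun _ _ _ _ => (mul_one _).symm, fun _ _ => continuousAt_const⟩

theorem mul' {c c' : A → ℂ} (h : Hm c) (h' : Hm c') : Hm fun a => c a * c' a :=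
  ⟨by rw [h.one, h'.one, mul_one], fun a b ha hb => by
    rw [h.mul a b ha hb, h'.mul a b ha hb, mul_mul_mul_comm], fun a ha => (h.cont a ha).mul (h'.cont a ha)⟩

end Hm

/-- `f` is continuous and equivariant along `θ`. -/
structure Eqh (act : A → W → W) (act' : A' → W' → W') (S : Set W) (S' : Set W') (θ : A → A')
    (f : W → W') : Prop where
  hm : Hm θ
  maps : MapsTo f S S'
  cont : ContinuousOn f S
  eqv : ∀ a, IsUnit a → ∀ x ∈ S, f (act a x) = act' (θ a) (f x)

theorem Eqh.toEqv (h : Eqh act act' S S' θ f) : Eqv act act' S S' f :=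
  ⟨h.maps, h.cont, fun a ha x hx => ⟨θ a, h.hm.isUnit ha, h.eqv a ha x hx⟩⟩

theorem Eqh.incl (e : Z ⊆ S) : Eqh act act Z S (fun a => a) id :=
  ⟨Hm.id, e, continuousOn_id, fun _ _ _ _ => rfl⟩

theorem Eqh.mono (h : Eqh act act' S S' θ f) (e : Z ⊆ S) {Z' : Set W'} (e' : MapsTo f Z Z') :
    Eqh act act' Z Z' θ f := ⟨h.hm, e', h.cont.mono e, fun a ha x hx => h.eqv a ha x (e hx)⟩

variable (act S) in
/-- the first Chern class of the line bundle of the character `c` -/
noncomputable def lcq (c : A → ℂ) : H (Quo act S) :=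
  hcls (eulerC act (fun t (z : ℂ) => c t * z) S (fun _ => ⊤) fun _ => ⊥)

theorem isMod_char {Y : Ch.Sp} (p : Ch.Pres Y act S) {c : A → ℂ} {χ : Y.G →ₜ* ℂˣ}
    (h : ∀ g, (χ g : ℂ) = c (p.u g)) : Ch.IsMod p (fun t (z : ℂ) => c t * z) (fun _ => ⊤)
      (fun _ => ⊥) (Ch.char χ) (Ch.char χ) LinearMap.id fun _ => LinearMap.id where
  emb := IsEmbedding.id
  map _ := Submodule.map_id _
  eqv g _ w _ := sub_eq_zero.2 (congrArg (· * (show ℂ from w)) (h g))
  le _ _ _ := trivial
  hom := ⟨fun _ _ h => h, continuous_snd.comp continuous_subtype_val, fun _ _ _ _ => rfl⟩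
  surj _ w h := ⟨w, h, rfl⟩
  ker _ _ _ := Iff.rfl

theorem lcq_eq {Y : Ch.Sp} (p : Ch.Pres Y act S) {c : A → ℂ} {χ : Y.G →ₜ* ℂˣ}
    (h : ∀ g, (χ g : ℂ) = c (p.u g)) : lcq act S c = H.map p.e (Ch.c1 χ).1 :=
  (isMod_char p h).hcls_eulerC

variable (act S) in
/-- the fundamental class -/
noncomputable def fnd : BM (Quo act S) := Classical.epsilon (P269.IsFund act S)

theorem ev_rep {X : Type} [TopologicalSpace X] [CompactSpace X] (β : BM X) (c : H X) :
    ev β (rep c) = Loc.intg β c := by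
  rw [← Loc.intg_hcls β (DgI.rep_cocycle c), DgI.hcls_rep]

variable [FiniteDimensional ℂ A] [FiniteDimensional ℂ W] [FiniteDimensional ℂ A']
  [FiniteDimensional ℂ W'] [IsAct act univ] [IsAct act' univ] {n : ℕ}

theorem fp_of (hi : ∀ a, IsUnit a → ∀ x ∈ S, act a x ∈ S) (hl : IsLocallyClosed S)
    (hf : ∀ a, IsUnit a → ∀ x ∈ S, act a x = x → a = 1)
    (hp : ∀ (x : ℕ → W) (a : ℕ → A) x₀ x₁, (∀ n, IsUnit (a n)) → (∀ n, x n ∈ S) → x₀ ∈ S → x₁ ∈ S →
      Tendsto x atTop (𝓝 x₀) → Tendsto (fun n => act (a n) (x n)) atTop (𝓝 x₁) →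
      ¬Tendsto (fun n => ‖a n‖) atTop atTop) : FP act S :=
  haveI := FiniteDimensional.proper ℂ W
  haveI : IsAct act S := IsAct.mono ‹_› (subset_univ _) hi
  { this with
    proper := properSMul_units_seq fun x y p g h1 h2 => hp (fun n => (p n).val) (fun n => g n) _ _
      (fun n => (g n).isUnit) (fun n => (p n).val_mem) x.val_mem y.val_mem
      ((Sp.continuous_val.tendsto _).comp h1) ((Sp.continuous_val.tendsto _).comp h2)
    lc := hl.locallyCompactSpace
    free := fun x g e => Units.ext (hf _ g.isUnit _ x.val_mem (congrArg Sp.val e)) }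

variable [FP act S] [FP act' S']

variable (act S) in
theorem orb : Orb Aˣ (Sp act S) :=
  haveI := FiniteDimensional.complete ℂ A
  haveI := (inferInstance : FP act S).lc
  prp_of_properSMul.orb

variable (act S) in
/-- the orbit space as a presented space -/
@[reducible] noncomputable def sp : Ch.Sp :=
  Ch.Sp.of (orb act S) (isQuo_sp : IsQuo Aˣ (Sp.mk : Sp act S → Quo act S))

variable (act S) in
/-- the tautological identification -/
noncomputable def pres : Ch.Pres (sp act S) act S := Ch.presA (orb act S)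

/-- the morphism of presentations -/
def Eqh.mor (h : Eqh act act' S S' θ f) : Ch.Mor (sp act S) (sp act' S') :=
  ⟨h.hm.ρ.toMonoidHom, fun x => Sp.of act' (f x.val) (h.maps x.val_mem), h.hm.ρ.continuous,
    (h.cont.domRestrict.subtype_mk _ :), fun g x => Sp.ext (h.eqv _ g.isUnit _ x.val_mem)⟩

theorem Eqh.mor_map (h : Eqh act act' S S' θ f) : h.mor.map = h.toEqv.qm :=
  (DFunLike.coe_injective (h.mor.map_eq (φ := h.toEqv.qm) fun _ => rfl)).symm

section lc

variable {c c' : A → ℂ} {ι : Type}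

variable (act S) in
/-- the first Chern class as an even class -/
noncomputable def lce (h : Hm c) : Ch.Hev (Quo act S) := Ch.c1 (Y := sp act S) h.ρ

theorem lce_val (h : Hm c) : (lce act S h).1 = lcq act S c :=
  ((lcq_eq (pres act S) (χ := h.ρ) fun _ => rfl).trans (H.map_id (fun _ => rfl) _)).symm

theorem lcq_deg (h : Hm c) : H.IsDeg 2 (lcq act S c) :=
  lce_val (act := act) (S := S) h ▸ (Ch.c1_deg (Y := sp act S) h.ρ :)

theorem lcq_mem (h : Hm c) : lcq act S c ∈ Ch.Hev _ := lce_val (act := act) (S := S) h ▸ (lce act S h).2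

theorem lcq_congr (h : Hm c) (e : ∀ a, IsUnit a → c' a = c a) : lcq act S c' = lcq act S c :=
  (lcq_eq (pres act S) (χ := h.ρ) fun g => (e _ g.isUnit).symm).trans
    (lcq_eq (pres act S) (χ := h.ρ) fun _ => rfl).symm

theorem lcq_mul (h : Hm c) (h' : Hm c') :
    lcq act S (fun a => c a * c' a) = lcq act S c + lcq act S c' := by
  rw [← lce_val h, ← lce_val h', ← lce_val (h.mul' h')]
  exact congrArg Subtype.val ((congrArg (Ch.c1 (Y := sp act S))
    (ContinuousMonoidHom.ext fun _ => Units.ext rfl)).trans (Ch.c1_mul (Y := sp act S) h.ρ h'.ρ))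

theorem lcq_one : lcq act S (fun _ => 1) = 0 := by
  rw [← lce_val Hm.const]
  exact congrArg Subtype.val ((congrArg (Ch.c1 (Y := sp act S))
    (ContinuousMonoidHom.ext fun _ => Units.ext rfl)).trans Ch.c1_one)

/-- **naturality** -/
theorem Eqh.map_lcq (h : Eqh act act' S S' θ f) {c : A' → ℂ} (hc : Hm c) :
    H.map h.toEqv.qm (lcq act' S' c) = lcq act S fun a => c (θ a) := by
  rw [← lce_val hc, ← lce_val (h.hm.comp hc), ← h.mor_map]
  exact congrArg Subtype.val (Ch.map_c1 h.mor hc.ρ)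

/-- a family of equivariant functions -/
structure Sec (act : A → W → W) (S : Set W) (c : ι → A → ℂ) (s : W → ι → ℂ) : Prop where
  hm : ∀ i, Hm (c i)
  cont : ContinuousOn s S
  eqv : ∀ a, IsUnit a → ∀ x ∈ S, ∀ i, s (act a x) i = c i a * s x i

variable [Fintype ι] {c : ι → A → ℂ} {s : W → ι → ℂ}

theorem Sec.isSec (h : Sec act S c s) :
    (Ch.chars (Y := sp act S) fun i => (h.hm i).ρ).IsSec fun x : Sp act S => s x.val :=
  ⟨fun _ => trivial, h.cont.domRestrict, fun g x => funext (h.eqv _ g.isUnit _ x.val_mem)⟩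

theorem Sec.hcls_eul (h : Sec act S c s) :
    hcls h.isSec.eul = (∏ i, lce act S (h.hm i)).1 :=
  h.isSec.hcls_eul.trans (congrArg Subtype.val (Ch.eu_chars _))

/-- **sections without common zero** -/
theorem Sec.prod_eq_zero (h : Sec act S c s) (h0 : ∀ x ∈ S, s x ≠ 0) :
    ∏ i, lce act S (h.hm i) = 0 :=
  (Ch.eu_chars (Y := sp act S) _).symm.trans (h.isSec.eu_eq_zero fun x => h0 _ x.val_mem)

end lc

/-- `S` is a manifold and the orbit space has dimension `n`. -/
def Dim (_act : A → W → W) (S : Set W) (n : ℕ) : Prop := ∀ x ∈ S, MfdAt S (finrank ℂ A + n) x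

namespace Dim

variable (h : Dim act S n)
include h

theorem isMfd (x : Sp act S) : IsMfd Sp.val (finrank ℂ A + n) x := (h _ x.val_mem).isMfd _

theorem holOrb : HolOrb Aˣ (Sp.val : Sp act S → W) n := FP.holOrb h.isMfd

theorem fnd_eq : fnd act S = fundQ Aˣ Sp.val Sp.mk n :=
  FP.eq_fundQ h.holOrb (Classical.epsilon_spec ⟨_, FP.isFund h.holOrb⟩)

theorem isFund : P269.IsFund act S (fnd act S) := h.fnd_eq ▸ FP.isFund h.holOrb

theorem ori : Ori (2 * n) (fnd act S) := h.fnd_eq ▸ h.holOrb.ori isQuo_sp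

theorem deg : BM.IsDeg (2 * n) (fnd act S) := h.ori.deg

theorem top : Top (Quo act S) (2 * n) := h.ori.top

theorem H_eq_zero {k : ℤ} {c : H (Quo act S)} (hc : H.IsDeg k c) (hk : 2 * n < k) : c = 0 :=
  h.ori.H_eq_zero hc hk

theorem intg_deg {k : ℤ} {c : H (Quo act S)} (hc : H.IsDeg k c) (hk : k ≠ 2 * n) :
    Loc.intg (fnd act S) c = 0 := Loc.intg_deg h.deg hc hk

theorem isNilpotent {k : ℤ} {c : Ch.Hev (Quo act S)} (hc : c ∈ Ch.Hev.deg _ k) (hk : 0 < k) :
    IsNilpotent c :=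
  ⟨n + 1, Subtype.ext (h.H_eq_zero (Ch.Hev.pow_deg hc (n + 1)) (by push_cast; nlinarith))⟩

omit h in
theorem of_mfd {m : ℕ} (h : ∀ x ∈ S, MfdAt S m x) : Dim act S (m - finrank ℂ A) := fun x hx => by
  rw [Nat.add_sub_cancel' (FP.finrank_le (x := Sp.of act x hx) ((h x hx).isMfd hx))]
  exact h x hx

variable (hl : ∀ a, IsUnit a → IsLinearMap ℂ (act a))

/-- the orbit space as a complex orbifold -/
@[reducible] noncomputable def ho : Loc.HO :=
  haveI := FiniteDimensional.complete ℂ A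
  letI := Ch.VB.linAct (fun g : Aˣ => (hl g g.isUnit).mk' _) (fun w => act_one w)
    fun g g' w => act_mul g g' w
  { toSp := sp act S
    L := A
    A := W
    cA := ⟨fun g c w => (hl g g.isUnit).map_smul c w⟩
    tA := ⟨continuous_iff_continuousAt.2 fun p => ContinuousAt.comp
      (g := fun p : A × W => act p.1 p.2) (f := fun p : Aˣ × W => ((p.1 : A), p.2))
      (act_an p.1 p.2).continuousAt (Units.continuous_val.prodMap continuous_id).continuousAt⟩
    κ := expU
    ι := Sp.val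
    n := n
    exp := isExp_expU
    an := fun a => AnalyticAt.comp (g := fun p : A × W => act p.1 p.2)
      (f := fun p : A × W => (NormedSpace.exp p.1, p.2)) (act_an (expU 0) a)
      (((exp_an _).comp analyticAt_fst).prod analyticAt_snd)
    emb := Sp.isEmbedding_val
    eqv := fun _ _ => rfl
    mfd := h.isMfd }

theorem ho_fund : (h.ho hl).fund = fnd act S := h.fnd_eq.symm

end Dim

/-- **transverse zero sets** -/
theorem Sec.gys {ι : Type} [Fintype ι] {c : ι → A → ℂ} {s : W → ι → ℂ} (h : Sec act S c s)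
    (hd : Dim act S (n + Fintype.card ι)) (hl : ∀ a, IsUnit a → IsLinearMap ℂ (act a))
    (hZ : ∀ x, x ∈ Z ↔ x ∈ S ∧ s x = 0) [FP act Z] (ha : ∀ x ∈ Z, AnalyticAt ℂ s x)
    (ht : ∀ x (hx : x ∈ S), x ∈ Z → ∀ w, ∃ v ∈ tan (Subtype.val : S → W) ⟨x, hx⟩,
      fderiv ℂ s x v = w) (e : Z ⊆ S) :
    Dim act Z n ∧ IsClosedEmbedding (qinc act e) ∧
      push (qinc act e) (fnd act Z) = cap (∏ i, lce act S (h.hm i)).1 (fnd act S) := by
  obtain ⟨h1, h2, -, h4⟩ := (hd.ho hl).gys_eul_hol rfl (E := Ch.chars fun i => (h.hm i).ρ) rfl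
    h.isSec (Sp.isEmbedding_incl (act := act) e) (Sp.incl_smul e)
    (fun t => (Sp.mem_range_incl e).trans ((hZ _).trans (and_iff_right t.val_mem)))
    (fun z => ⟨s, ha _ z.val_mem, .of_forall fun _ => rfl, fun w _ => ht _ _ z.val_mem w⟩)
    isQuo_sp (i := qinc act e) fun _ => rfl
  have h5 : Dim act Z n := fun x hx => ⟨hx, h2 (Sp.of act x hx)⟩
  refine ⟨h5, h1, ?_⟩
  rw [h5.fnd_eq, hd.fnd_eq, ← h.hcls_eul, ← gys_id_eq_cap h.isSec.isCo.cocycle]
  refine (congrArg _ h4.symm).trans (push_gys h1 IsClosedEmbedding.id h.isSec.isCo.cocycle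
    (h.isSec.isCo.supp.trans ?_) _)
  rintro _ ⟨t, ht, rfl⟩
  exact ⟨Sp.mk (Sp.of act t.val ((hZ _).2 ⟨t.val_mem, ht⟩)), rfl⟩

end Vale.Agent.P269.Tq
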